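import Vale.Agent.P069.Main

/-!
P069: a reflexive AMUC space that has no equivalent AUC norm.
-/

theorem Vale.Agent.Results.P069.AMUCNotAUC.result : Vale.Agent.P069.ReflexiveAMUCNotAUC :=
  Vale.Agent.P069.reflexiveAMUCNotAUC
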